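import Vale.Agent.P183A.Basic
import Mathlib.Data.Finite.Sum
import Mathlib.Data.Finite.Prod

/-!
Insertion of posets into intervals of a poset, and horizontal summands.
-/

namespace Vale.Agent.P183B

/-- Any two elements have a least upper bound. -/
def HasSup (K : Type) [PartialOrder K] : Prop :=
  ∀ x y : K, ∃ s, ∀ t, s ≤ t ↔ x ≤ t ∧ y ≤ t

/-- Any two elements have a greatest lower bound. -/
def HasInf (K : Type) [PartialOrder K] : Prop :=
  ∀ x y : K, ∃ s, ∀ t, t ≤ s ↔ t ≤ x ∧ t ≤ y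

/-- Any two elements have a least upper bound or no upper bound. -/
def QSup (K : Type) [PartialOrder K] : Prop :=
  ∀ x y : K, (∃ s, ∀ t, s ≤ t ↔ x ≤ t ∧ y ≤ t) ∨ ∀ t, ¬ (x ≤ t ∧ y ≤ t)

/-- Any two elements have a greatest lower bound or no lower bound. -/
def QInf (K : Type) [PartialOrder K] : Prop :=
  ∀ x y : K, (∃ s, ∀ t, t ≤ s ↔ t ≤ x ∧ t ≤ y) ∨ ∀ t, ¬ (t ≤ x ∧ t ≤ y)

theorem hasSup_of_lattice (K : Type) [Lattice K] : HasSup K :=
  fun x y => ⟨x ⊔ y, fun _ => sup_le_iff⟩

theorem hasInf_of_lattice (K : Type) [Lattice K] : HasInf K :=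
  fun x y => ⟨x ⊓ y, fun _ => le_inf_iff⟩

theorem HasSup.q {K : Type} [PartialOrder K] (h : HasSup K) : QSup K := fun x y => Or.inl (h x y)

theorem HasInf.q {K : Type} [PartialOrder K] (h : HasInf K) : QInf K := fun x y => Or.inl (h x y)

theorem HasSup.dual {K : Type} [PartialOrder K] (h : HasSup K) : HasInf Kᵒᵈ := h

theorem HasInf.dual {K : Type} [PartialOrder K] (h : HasInf K) : HasSup Kᵒᵈ := h

/-- The lattice structure on a poset with suprema and infima of pairs. -/
@[reducible] noncomputable def toLattice (K : Type) [i : PartialOrder K] (hs : HasSup K)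
    (hi : HasInf K) : Lattice K :=
  { i with
    sup := fun x y => (hs x y).choose
    le_sup_left := fun x y => (((hs x y).choose_spec _).1 le_rfl).1
    le_sup_right := fun x y => (((hs x y).choose_spec _).1 le_rfl).2
    sup_le := fun x y t h1 h2 => ((hs x y).choose_spec t).2 ⟨h1, h2⟩
    inf := fun x y => (hi x y).choose
    inf_le_left := fun x y => (((hi x y).choose_spec _).1 le_rfl).1
    inf_le_right := fun x y => (((hi x y).choose_spec _).1 le_rfl).2
    le_inf := fun t x y h1 h2 => ((hi x y).choose_spec t).2 ⟨h1, h2⟩ }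

/-- The proper part of a bounded poset. -/
abbrev Pr (J : Type) [PartialOrder J] [BoundedOrder J] : Type := {x : J // x ≠ ⊥ ∧ x ≠ ⊤}

theorem qsup_pr {J : Type} [PartialOrder J] [BoundedOrder J] (h : HasSup J) : QSup (Pr J) := by
  intro x y
  obtain ⟨s, hs⟩ := h x.1 y.1
  by_cases ht : s = ⊤
  · right
    rintro t ⟨h1, h2⟩
    have := (hs t.1).2 ⟨h1, h2⟩
    rw [ht, top_le_iff] at this
    exact t.2.2 this
  · left
    have hb : s ≠ ⊥ := by
      intro hb
      have := ((hs s).1 le_rfl).1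
      rw [hb, le_bot_iff] at this
      exact x.2.1 this
    exact ⟨⟨s, hb, ht⟩, fun t => hs t.1⟩

theorem qinf_pr {J : Type} [PartialOrder J] [BoundedOrder J] (h : HasInf J) : QInf (Pr J) := by
  intro x y
  obtain ⟨s, hs⟩ := h x.1 y.1
  by_cases hb : s = ⊥
  · right
    rintro t ⟨h1, h2⟩
    have := (hs t.1).2 ⟨h1, h2⟩
    rw [hb, le_bot_iff] at this
    exact t.2.1 this
  · left
    have ht : s ≠ ⊤ := by
      intro ht
      have := ((hs s).1 le_rfl).1
      rw [ht, top_le_iff] at this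
      exact x.2.2 this
    exact ⟨⟨s, hb, ht⟩, fun t => hs t.1⟩

/-- A family of proper intervals `u j < v j` of `K`. -/
structure Ints (K : Type) [PartialOrder K] (ι : Type) where
  u : ι → K
  v : ι → K
  lt : ∀ j, u j < v j

/-- `K` with a copy of `P` inserted strictly between `u j` and `v j`, for each `j`. -/
inductive Ins {K : Type} [PartialOrder K] {ι : Type} (D : Ints K ι) (P : Type) : Type
  | base (a : K) : Ins D P
  | new (j : ι) (x : P) : Ins D P

namespace Ins

variable {K : Type} [PartialOrder K] {ι : Type} {D : Ints K ι} {P : Type}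

/-- The largest element of `K` below. -/
def lo : Ins D P → K
  | base a => a
  | new j _ => D.u j

/-- The least element of `K` above. -/
def hi : Ins D P → K
  | base a => a
  | new j _ => D.v j

theorem lo_le_hi (p : Ins D P) : p.lo ≤ p.hi := by
  cases p with
  | base a => exact le_rfl
  | new j x => exact (D.lt j).le

theorem eq_base_of_hi_le_lo {p : Ins D P} (h : p.hi ≤ p.lo) : p = base p.lo := by
  cases p with
  | base a => rfl
  | new j x => exact absurd (D.lt j) (not_lt_of_ge h)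

variable [PartialOrder P]

/-- The order. -/
def le' (p q : Ins D P) : Prop :=
  (∃ j x y, p = new j x ∧ q = new j y ∧ x ≤ y) ∨ p.hi ≤ q.lo

instance : PartialOrder (Ins D P) where
  le := le'
  le_refl p := by
    cases p with
    | base a => exact Or.inr le_rfl
    | new j x => exact Or.inl ⟨j, x, x, rfl, rfl, le_rfl⟩
  le_trans p q r := by
    rintro (⟨j, x, y, rfl, rfl, h⟩ | h) (⟨j', x', y', h1, rfl, h'⟩ | h')
    · cases h1
      exact Or.inl ⟨_, _, _, rfl, rfl, h.trans h'⟩
    · exact Or.inr h'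
    · subst h1
      exact Or.inr h
    · exact Or.inr (h.trans ((lo_le_hi q).trans h'))
  le_antisymm p q := by
    rintro (⟨j, x, y, rfl, rfl, h⟩ | h) (⟨j', x', y', h1, h2, h'⟩ | h')
    · cases h1
      cases h2
      rw [le_antisymm h h']
    · exact absurd (D.lt j) (not_lt_of_ge h')
    · subst h1
      subst h2
      exact absurd (D.lt j') (not_lt_of_ge h)
    · have h1 : p.hi ≤ p.lo := h.trans ((lo_le_hi q).trans h')
      have h2 : q.hi ≤ q.lo := h'.trans ((lo_le_hi p).trans h)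
      rw [eq_base_of_hi_le_lo h1, eq_base_of_hi_le_lo h2]
      congr 1
      exact le_antisymm ((lo_le_hi p).trans h) ((lo_le_hi q).trans h')

theorem le_def {p q : Ins D P} :
    p ≤ q ↔ (∃ j x y, p = new j x ∧ q = new j y ∧ x ≤ y) ∨ p.hi ≤ q.lo := Iff.rfl

theorem base_le {a : K} {q : Ins D P} : base a ≤ q ↔ a ≤ q.lo := by
  rw [le_def]
  constructor
  · rintro (⟨j, x, y, h, -⟩ | h)
    · cases h
    · exact h
  · exact Or.inr

theorem le_base {a : K} {p : Ins D P} : p ≤ base a ↔ p.hi ≤ a := by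
  rw [le_def]
  constructor
  · rintro (⟨j, x, y, -, h, -⟩ | h)
    · cases h
    · exact h
  · exact Or.inr

@[simp] theorem base_le_base {a b : K} : (base a : Ins D P) ≤ base b ↔ a ≤ b := base_le

@[simp] theorem base_le_new {a : K} {j : ι} {y : P} :
    (base a : Ins D P) ≤ new j y ↔ a ≤ D.u j := base_le

@[simp] theorem new_le_base {a : K} {j : ι} {y : P} :
    (new j y : Ins D P) ≤ base a ↔ D.v j ≤ a := le_base

theorem new_le_new {j j' : ι} {x y : P} :
    (new j x : Ins D P) ≤ new j' y ↔ (j = j' ∧ x ≤ y) ∨ D.v j ≤ D.u j' := by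
  rw [le_def]
  constructor
  · rintro (⟨j, x, y, h1, h2, h⟩ | h)
    · cases h1
      cases h2
      exact Or.inl ⟨rfl, h⟩
    · exact Or.inr h
  · rintro (⟨rfl, h⟩ | h)
    · exact Or.inl ⟨_, _, _, rfl, rfl, h⟩
    · exact Or.inr h

@[simp] theorem new_le_new_same {j : ι} {x y : P} :
    (new j x : Ins D P) ≤ new j y ↔ x ≤ y := by
  rw [new_le_new]
  constructor
  · rintro (⟨-, h⟩ | h)
    · exact h
    · exact absurd (D.lt j) (not_lt_of_ge h)
  · exact fun h => Or.inl ⟨rfl, h⟩

theorem new_le {j : ι} {x : P} {q : Ins D P} :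
    new j x ≤ q ↔ (∃ y, q = new j y ∧ x ≤ y) ∨ base (D.v j) ≤ q := by
  rw [base_le, le_def]
  constructor
  · rintro (⟨j, x, y, h1, h2, h⟩ | h)
    · cases h1
      exact Or.inl ⟨y, h2, h⟩
    · exact Or.inr h
  · rintro (⟨y, rfl, h⟩ | h)
    · exact Or.inl ⟨_, _, _, rfl, rfl, h⟩
    · exact Or.inr h

theorem le_new {j : ι} {y : P} {p : Ins D P} :
    p ≤ new j y ↔ (∃ x, p = new j x ∧ x ≤ y) ∨ p ≤ base (D.u j) := by
  rw [le_base, le_def]
  constructor
  · rintro (⟨j, x, y, h1, h2, h⟩ | h)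
    · cases h2
      exact Or.inl ⟨x, h1, h⟩
    · exact Or.inr h
  · rintro (⟨x, rfl, h⟩ | h)
    · exact Or.inl ⟨_, _, _, rfl, rfl, h⟩
    · exact Or.inr h

instance [OrderBot K] : OrderBot (Ins D P) where
  bot := base ⊥
  bot_le _ := base_le.2 bot_le

instance [OrderTop K] : OrderTop (Ins D P) where
  top := base ⊤
  le_top _ := le_base.2 le_top

instance [BoundedOrder K] : BoundedOrder (Ins D P) where

theorem bot_eq [OrderBot K] : (⊥ : Ins D P) = base ⊥ := rfl

theorem top_eq [OrderTop K] : (⊤ : Ins D P) = base ⊤ := rfl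

omit [PartialOrder P] in
instance [Finite K] [Finite ι] [Finite P] : Finite (Ins D P) :=
  Finite.of_surjective (fun s : K ⊕ ι × P => (match s with
    | Sum.inl a => base a
    | Sum.inr jx => new jx.1 jx.2 : Ins D P)) (by
      intro p
      cases p with
      | base a => exact ⟨Sum.inl a, rfl⟩
      | new j x => exact ⟨Sum.inr (j, x), rfl⟩)

theorem hasSup (hK : HasSup K) (hP : QSup P) : HasSup (Ins D P) := by
  intro p q
  by_cases h1 : p ≤ q
  · exact ⟨q, fun t => ⟨fun h => ⟨h1.trans h, h⟩, fun h => h.2⟩⟩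
  by_cases h2 : q ≤ p
  · exact ⟨p, fun t => ⟨fun h => ⟨h, h2.trans h⟩, fun h => h.1⟩⟩
  by_cases h3 : ∃ j x y, p = new j x ∧ q = new j y
  · obtain ⟨j, x, y, rfl, rfl⟩ := h3
    rcases hP x y with ⟨s, hs⟩ | hs
    · refine ⟨new j s, fun t => ?_⟩
      have hxs : x ≤ s := ((hs s).1 le_rfl).1
      have hys : y ≤ s := ((hs s).1 le_rfl).2
      constructor
      · intro h
        exact ⟨(new_le_new_same.2 hxs).trans h, (new_le_new_same.2 hys).trans h⟩
      · rintro ⟨ha, hb⟩
        rcases new_le.1 ha with ⟨z, rfl, hz⟩ | ha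
        · exact new_le_new_same.2 ((hs z).2 ⟨hz, new_le_new_same.1 hb⟩)
        · exact new_le.2 (Or.inr ha)
    · refine ⟨base (D.v j), fun t => ?_⟩
      constructor
      · intro h
        exact ⟨new_le.2 (Or.inr h), new_le.2 (Or.inr h)⟩
      · rintro ⟨ha, hb⟩
        rcases new_le.1 ha with ⟨z, rfl, hz⟩ | ha
        · exact absurd ⟨hz, new_le_new_same.1 hb⟩ (hs z)
        · exact ha
  · obtain ⟨s, hs⟩ := hK p.hi q.hi
    refine ⟨base s, fun t => ?_⟩
    rw [base_le, hs]
    constructor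
    · exact fun h => ⟨Or.inr h.1, Or.inr h.2⟩
    · rintro ⟨(⟨j, x, y, rfl, rfl, h⟩ | ha), (⟨j', x', y', rfl, h', h''⟩ | hb)⟩
      · cases h'
        exact absurd ⟨_, _, _, rfl, rfl⟩ h3
      · exact absurd (Or.inr hb) h2
      · subst h'
        exact absurd (Or.inr ha) h1
      · exact ⟨ha, hb⟩

theorem hasInf (hK : HasInf K) (hP : QInf P) : HasInf (Ins D P) := by
  intro p q
  by_cases h1 : p ≤ q
  · exact ⟨p, fun t => ⟨fun h => ⟨h, h.trans h1⟩, fun h => h.1⟩⟩
  by_cases h2 : q ≤ p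
  · exact ⟨q, fun t => ⟨fun h => ⟨h.trans h2, h⟩, fun h => h.2⟩⟩
  by_cases h3 : ∃ j x y, p = new j x ∧ q = new j y
  · obtain ⟨j, x, y, rfl, rfl⟩ := h3
    rcases hP x y with ⟨s, hs⟩ | hs
    · refine ⟨new j s, fun t => ?_⟩
      have hxs : s ≤ x := ((hs s).1 le_rfl).1
      have hys : s ≤ y := ((hs s).1 le_rfl).2
      constructor
      · intro h
        exact ⟨h.trans (new_le_new_same.2 hxs), h.trans (new_le_new_same.2 hys)⟩
      · rintro ⟨ha, hb⟩
        rcases le_new.1 ha with ⟨z, rfl, hz⟩ | ha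
        · exact new_le_new_same.2 ((hs z).2 ⟨hz, new_le_new_same.1 hb⟩)
        · exact le_new.2 (Or.inr ha)
    · refine ⟨base (D.u j), fun t => ?_⟩
      constructor
      · intro h
        exact ⟨le_new.2 (Or.inr h), le_new.2 (Or.inr h)⟩
      · rintro ⟨ha, hb⟩
        rcases le_new.1 ha with ⟨z, rfl, hz⟩ | ha
        · exact absurd ⟨hz, new_le_new_same.1 hb⟩ (hs z)
        · exact ha
  · obtain ⟨s, hs⟩ := hK p.lo q.lo
    refine ⟨base s, fun t => ?_⟩
    rw [le_base, hs]
    constructor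
    · exact fun h => ⟨Or.inr h.1, Or.inr h.2⟩
    · rintro ⟨(⟨j, x, y, rfl, rfl, h⟩ | ha), (⟨j', x', y', h', rfl, h''⟩ | hb)⟩
      · cases h'
        exact absurd ⟨_, _, _, rfl, rfl⟩ h3
      · exact absurd (Or.inr hb) h1
      · subst h'
        exact absurd (Or.inr ha) h2
      · exact ⟨ha, hb⟩

end Ins

/-- `J` is a horizontal summand of the interval `[⊥, t]` of `L`. -/
structure Sub (J L : Type) [PartialOrder J] [BoundedOrder J] [PartialOrder L] [OrderBot L]
    (t : L) where
  ι : J → L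
  le_iff : ∀ a b, ι a ≤ ι b ↔ a ≤ b
  bot : ι ⊥ = ⊥
  top : ι ⊤ = t
  cl : ∀ a, a ≠ ⊥ → a ≠ ⊤ → ∀ w, w ≤ t → (w ≤ ι a ∨ ι a ≤ w) → ∃ b, ι b = w

namespace Sub

variable {J L : Type} [PartialOrder J] [BoundedOrder J]

theorem inj [PartialOrder L] [OrderBot L] {t : L} (S : Sub J L t) {a b : J} :
    S.ι a = S.ι b ↔ a = b := by
  constructor
  · intro h
    exact le_antisymm ((S.le_iff _ _).1 h.le) ((S.le_iff _ _).1 h.ge)
  · rintro rfl
    rfl

theorem lt_iff [PartialOrder L] [OrderBot L] {t : L} (S : Sub J L t) {a b : J} :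
    S.ι a < S.ι b ↔ a < b := by
  rw [lt_iff_le_not_ge, lt_iff_le_not_ge, S.le_iff, S.le_iff]

/-- Composition. -/
def comp {A : Type} [PartialOrder A] [BoundedOrder A] [PartialOrder L] [BoundedOrder L] {t : A}
    (S : Sub J A t) (T : Sub A L ⊤) : Sub J L (T.ι t) where
  ι := fun a => T.ι (S.ι a)
  le_iff := fun a b => by rw [T.le_iff, S.le_iff]
  bot := by rw [S.bot, T.bot]
  top := by rw [S.top]
  cl := by
    intro a h1 h2 w hw hc
    have hb : S.ι a ≠ ⊥ := by
      rw [← S.bot, Ne, S.inj]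
      exact h1
    have ht : S.ι a ≠ ⊤ := by
      intro h
      apply h2
      rw [← top_le_iff, ← S.le_iff, h]
      exact le_top
    obtain ⟨b, rfl⟩ := T.cl _ hb ht w le_top hc
    rw [T.le_iff] at hw
    rw [T.le_iff, T.le_iff] at hc
    obtain ⟨c, rfl⟩ := S.cl a h1 h2 b hw hc
    exact ⟨c, rfl⟩

/-- Restriction to the interval. -/
def toIic [Lattice L] [OrderBot L] {t : L} (S : Sub J L t) : Sub J (Set.Iic t) ⊤ where
  ι := fun a => ⟨S.ι a, by
    have := (S.le_iff a ⊤).2 le_top
    rwa [S.top] at this⟩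
  le_iff := fun a b => S.le_iff a b
  bot := Subtype.ext S.bot
  top := Subtype.ext S.top
  cl := by
    intro a h1 h2 w _ hc
    obtain ⟨b, hb⟩ := S.cl a h1 h2 w.1 w.2 hc
    exact ⟨b, Subtype.ext hb⟩

/-- The dual. -/
def dual [PartialOrder L] [BoundedOrder L] (S : Sub J L ⊤) : Sub Jᵒᵈ Lᵒᵈ ⊤ where
  ι := S.ι
  le_iff := fun a b => S.le_iff b a
  bot := S.top
  top := S.bot
  cl := fun a h1 h2 w _ hc => S.cl a h2 h1 w le_top hc.symm

end Sub

section blocks

variable {K : Type} [PartialOrder K] [BoundedOrder K] {ι : Type} {D : Ints K ι}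

open Classical in
/-- The map from `J` to the insertion of its proper part. -/
noncomputable def blockMap (D : Ints K ι) (J : Type) [PartialOrder J] [BoundedOrder J] (j : ι)
    (a : J) : Ins D (Pr J) :=
  if h : a ≠ ⊥ ∧ a ≠ ⊤ then Ins.new j ⟨a, h⟩ else if a = ⊥ then Ins.base (D.u j) else
    Ins.base (D.v j)

/-- An inserted block starting at the bottom is a horizontal summand. -/
noncomputable def blockSub (D : Ints K ι) (J : Type) [PartialOrder J] [BoundedOrder J]
    (hJ : (⊥ : J) ≠ ⊤) (j : ι) (hj : D.u j = ⊥) : Sub J (Ins D (Pr J)) (Ins.base (D.v j)) := by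
  have hb : blockMap D J j ⊥ = Ins.base (D.u j) := by simp [blockMap]
  have ht : blockMap D J j ⊤ = Ins.base (D.v j) := by simp [blockMap, hJ.symm]
  have hn : ∀ a (h : a ≠ ⊥ ∧ a ≠ ⊤), blockMap D J j a = Ins.new j ⟨a, h⟩ := by
    intro a h
    simp [blockMap, h]
  have hlt := D.lt j
  refine ⟨blockMap D J j, ?_, by rw [hb, hj]; rfl, ht, ?_⟩
  · intro a b
    by_cases ha : a = ⊥
    · subst ha
      rw [hb, hj]
      exact iff_of_true bot_le bot_le
    by_cases hb' : b = ⊤
    · subst hb'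
      rw [ht]
      refine iff_of_true ?_ le_top
      by_cases ha' : a = ⊤
      · rw [ha', ht]
      · rw [hn a ⟨ha, ha'⟩]
        simp
    by_cases ha' : a = ⊤
    · subst ha'
      rw [ht]
      refine iff_of_false ?_ (by simpa using hb')
      by_cases hb'' : b = ⊥
      · rw [hb'', hb]
        simpa using not_le_of_gt hlt
      · rw [hn b ⟨hb'', hb'⟩]
        simpa using not_le_of_gt hlt
    rw [hn a ⟨ha, ha'⟩]
    by_cases hb'' : b = ⊥
    · subst hb''
      rw [hb]
      refine iff_of_false ?_ (by simpa using ha)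
      simpa using not_le_of_gt hlt
    · rw [hn b ⟨hb'', hb'⟩]
      simp
  · intro a h1 h2 w hw hc
    rw [hn a ⟨h1, h2⟩] at hc
    rcases hc with hc | hc
    · rcases Ins.le_new.1 hc with ⟨x, rfl, -⟩ | hc
      · exact ⟨x.1, hn _ x.2⟩
      · refine ⟨⊥, ?_⟩
        rw [hb]
        refine le_antisymm ?_ hc
        rw [hj]
        exact bot_le
    · rcases Ins.new_le.1 hc with ⟨x, rfl, -⟩ | hc
      · exact ⟨x.1, hn _ x.2⟩
      · exact ⟨⊤, by rw [ht]; exact le_antisymm hc hw⟩

/-- If all blocks are inserted between the bottom and the top, the base is a horizontal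
summand. -/
def baseSub (D : Ints K ι) (P : Type) [PartialOrder P] (hu : ∀ j, D.u j = ⊥)
    (hv : ∀ j, D.v j = ⊤) : Sub K (Ins D P) ⊤ where
  ι := Ins.base
  le_iff := fun _ _ => Ins.base_le_base
  bot := rfl
  top := rfl
  cl := by
    intro a h1 h2 w _ hc
    cases w with
    | base b => exact ⟨b, rfl⟩
    | new j x =>
      exfalso
      rcases hc with hc | hc
      · rw [Ins.new_le_base, hv, top_le_iff] at hc
        exact h2 hc
      · rw [Ins.base_le_new, hu, le_bot_iff] at hc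
        exact h1 hc

end blocks

end Vale.Agent.P183B
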