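import Vale.Agent.P183B.Ins
import Mathlib.Data.Fintype.Order
import Mathlib.Data.Fintype.Powerset
import Mathlib.Data.Fintype.Option
import Mathlib.Order.WithBot

/-!
The explicit lattice satisfying the condition `Good`.
-/

namespace Vale.Agent.P183B

open P183A

/-- A pendant covering pair gives a pentagon. -/
theorem pent {L : Type} [Lattice L] {a b w y y' : L} (hm : ModIn a b w) (ha : a ≤ y)
    (hb : y' ≤ b) (hlt : y < y') (h1 : ∀ t, t < y' → t ≤ y) (h2 : ∀ t, y < t → y' ≤ t) :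
    y' ≤ w ∨ w ≤ y := by
  by_contra hc
  rw [not_or] at hc
  have e1 : w ⊓ y' ≤ y := by
    apply h1
    refine lt_of_le_of_ne inf_le_right fun h => hc.1 ?_
    rw [← h]
    exact inf_le_left
  have e2 : y' ≤ y ⊔ w := by
    apply h2
    refine lt_of_le_of_ne le_sup_left fun h => hc.2 ?_
    rw [h]
    exact le_sup_right
  have := hm y y' ha hlt.le hb
  rw [sup_eq_left.2 e1, inf_eq_right.2 e2] at this
  exact hlt.ne this

section chains

variable {K : Type} [PartialOrder K] [BoundedOrder K] {ι : Type} {D : Ints K ι}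
  {L : Type} [Lattice L] [BoundedOrder L] (S : Sub (Ins D Bool) L ⊤)

theorem new_ne_bot (j : ι) (b : Bool) : (Ins.new j b : Ins D Bool) ≠ ⊥ := by
  rw [Ins.bot_eq]
  intro h
  cases h

theorem new_ne_top (j : ι) (b : Bool) : (Ins.new j b : Ins D Bool) ≠ ⊤ := by
  rw [Ins.top_eq]
  intro h
  cases h

theorem le_chain {j : ι} {b : Bool} {w : L} (h : w ≤ S.ι (Ins.new j b)) :
    (∃ b', b' ≤ b ∧ w = S.ι (Ins.new j b')) ∨ w ≤ S.ι (Ins.base (D.u j)) := by
  obtain ⟨g, rfl⟩ := S.cl _ (new_ne_bot j b) (new_ne_top j b) w le_top (Or.inl h)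
  rw [S.le_iff] at h
  rcases Ins.le_new.1 h with ⟨x, rfl, hx⟩ | h
  · exact Or.inl ⟨x, hx, rfl⟩
  · exact Or.inr ((S.le_iff _ _).2 h)

theorem chain_le {j : ι} {b : Bool} {w : L} (h : S.ι (Ins.new j b) ≤ w) :
    (∃ b', b ≤ b' ∧ w = S.ι (Ins.new j b')) ∨ S.ι (Ins.base (D.v j)) ≤ w := by
  obtain ⟨g, rfl⟩ := S.cl _ (new_ne_bot j b) (new_ne_top j b) w le_top (Or.inr h)
  rw [S.le_iff] at h
  rcases Ins.new_le.1 h with ⟨x, rfl, hx⟩ | h
  · exact Or.inl ⟨x, hx, rfl⟩
  · exact Or.inr ((S.le_iff _ _).2 h)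

theorem chain_lt (j : ι) : S.ι (Ins.new j false) < S.ι (Ins.new j true) := by
  rw [S.lt_iff, lt_iff_le_not_ge]
  simp

theorem u_le_chain (j : ι) (b : Bool) : S.ι (Ins.base (D.u j)) ≤ S.ι (Ins.new j b) := by
  rw [S.le_iff]
  simp

theorem chain_le_v (j : ι) (b : Bool) : S.ι (Ins.new j b) ≤ S.ι (Ins.base (D.v j)) := by
  rw [S.le_iff]
  simp

theorem chain_below (j : ι) (t : L) (h : t < S.ι (Ins.new j true)) :
    t ≤ S.ι (Ins.new j false) := by
  rcases le_chain S h.le with ⟨b, -, rfl⟩ | h'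
  · cases b
    · exact le_rfl
    · exact absurd h (lt_irrefl _)
  · exact h'.trans (u_le_chain S j false)

theorem chain_above (j : ι) (t : L) (h : S.ι (Ins.new j false) < t) :
    S.ι (Ins.new j true) ≤ t := by
  rcases chain_le S h.le with ⟨b, -, rfl⟩ | h'
  · cases b
    · exact absurd h (lt_irrefl _)
    · exact le_rfl
  · exact (chain_le_v S j true).trans h'

theorem chain_mod (j : ι) {a b w : L} (hm : ModIn a b w) (ha : a ≤ S.ι (Ins.base (D.u j)))
    (hb : S.ι (Ins.base (D.v j)) ≤ b) :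
    (∃ c, w = S.ι (Ins.new j c)) ∨ S.ι (Ins.base (D.v j)) ≤ w ∨ w ≤ S.ι (Ins.base (D.u j)) := by
  rcases pent hm (ha.trans (u_le_chain S j false)) ((chain_le_v S j true).trans hb)
    (chain_lt S j) (chain_below S j) (chain_above S j) with h | h
  · rcases chain_le S h with ⟨c, -, hc⟩ | h
    · exact Or.inl ⟨c, hc⟩
    · exact Or.inr (Or.inl h)
  · rcases le_chain S h with ⟨c, -, hc⟩ | h
    · exact Or.inl ⟨c, hc⟩
    · exact Or.inr (Or.inr h)

theorem noMod_of_chains {j j' : ι} (hj : j ≠ j') (hu : D.u j' = D.u j) (hv : D.v j' = D.v j) :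
    NoMod (S.ι (Ins.base (D.u j))) (S.ι (Ins.base (D.v j))) := by
  refine ⟨⟨S.ι (Ins.new j false), ?_, ?_⟩, fun w h1 h2 hm => ?_⟩
  · rw [S.lt_iff, lt_iff_le_not_ge]
    simpa using not_le_of_gt (D.lt j)
  · rw [S.lt_iff, lt_iff_le_not_ge]
    simpa using not_le_of_gt (D.lt j)
  rcases chain_mod S j hm le_rfl le_rfl with ⟨c, hc⟩ | h | h
  · rcases chain_mod S j' hm (by rw [hu]) (by rw [hv]) with ⟨c', hc'⟩ | h | h
    · rw [hc, S.inj] at hc'
      cases hc'
      exact absurd rfl hj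
    · rw [hv] at h
      exact Or.inr (le_antisymm h2 h)
    · rw [hu] at h
      exact Or.inl (le_antisymm h h1)
  · exact Or.inr (le_antisymm h2 h)
  · exact Or.inl (le_antisymm h h1)

end chains

section gadget

variable (Λ : Type) [Lattice Λ] [BoundedOrder Λ]

/-- The chain `⊥ < o < e` below a copy of `Λ`. -/
abbrev K0 : Type := WithBot (WithBot (WithBot Λ))

/-- The atom `o`. -/
def oK : K0 Λ := ((⊥ : WithBot (WithBot Λ)) : K0 Λ)

/-- The element `e`. -/
def eK : K0 Λ := (((⊥ : WithBot Λ) : WithBot (WithBot Λ)) : K0 Λ)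

/-- The copy of `Λ`. -/
def lam (l : Λ) : K0 Λ := (((l : WithBot Λ) : WithBot (WithBot Λ)) : K0 Λ)

variable {Λ}

theorem lam_top : lam Λ ⊤ = ⊤ := rfl

theorem lam_le {a b : Λ} : lam Λ a ≤ lam Λ b ↔ a ≤ b := by simp [lam]

theorem bot_lt_o : ⊥ < oK Λ := WithBot.bot_lt_coe _

theorem o_lt_e : oK Λ < eK Λ := WithBot.coe_lt_coe.2 (WithBot.bot_lt_coe _)

theorem e_lt_lam (l : Λ) : eK Λ < lam Λ l :=
  WithBot.coe_lt_coe.2 (WithBot.coe_lt_coe.2 (WithBot.bot_lt_coe _))

theorem o_lt_lam (l : Λ) : oK Λ < lam Λ l := o_lt_e.trans (e_lt_lam l)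

theorem o_le_or (k : K0 Λ) : oK Λ ≤ k ∨ k = ⊥ := by
  induction k using WithBot.recBotCoe with
  | bot => exact Or.inr rfl
  | coe k => exact Or.inl (WithBot.coe_le_coe.2 bot_le)

theorem exists_lam {k : K0 Λ} (h : lam Λ ⊥ ≤ k) : ∃ l, k = lam Λ l := by
  induction k using WithBot.recBotCoe with
  | bot => exact absurd h (not_le_of_gt (bot_lt_o.trans (o_lt_lam ⊥)))
  | coe k =>
    induction k using WithBot.recBotCoe with
    | bot => exact absurd h (not_le_of_gt (o_lt_lam ⊥))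
    | coe k =>
      induction k using WithBot.recBotCoe with
      | bot => exact absurd h (not_le_of_gt (e_lt_lam ⊥))
      | coe k => exact ⟨k, rfl⟩

variable (Λ)

/-- The interval `[o, ⊤]`. -/
def D1 : Ints (K0 Λ) Unit where
  u := fun _ => oK Λ
  v := fun _ => ⊤
  lt := fun _ => o_lt_lam ⊤

/-- The dual of `Λ` inserted into `[o, ⊤]`. -/
abbrev K1 : Type := Ins (D1 Λ) Λᵒᵈ

/-- Indices of the pendant chains. -/
inductive Ch : Type
  | sc (i : Fin 2) : Ch
  | ab (l : Λ) : Ch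
  | uu (i : Fin 2) : Ch
  | pp (i : Fin 2) : Ch

instance [Finite Λ] : Finite (Ch Λ) :=
  Finite.of_surjective (fun s : Fin 2 ⊕ Λ ⊕ Fin 2 ⊕ Fin 2 => (match s with
    | Sum.inl i => Ch.sc i
    | Sum.inr (Sum.inl l) => Ch.ab l
    | Sum.inr (Sum.inr (Sum.inl i)) => Ch.uu i
    | Sum.inr (Sum.inr (Sum.inr i)) => Ch.pp i : Ch Λ)) (by
      intro p
      cases p with
      | sc i => exact ⟨Sum.inl i, rfl⟩
      | ab l => exact ⟨Sum.inr (Sum.inl l), rfl⟩
      | uu i => exact ⟨Sum.inr (Sum.inr (Sum.inl i)), rfl⟩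
      | pp i => exact ⟨Sum.inr (Sum.inr (Sum.inr i)), rfl⟩)

/-- Lower ends of the pendant chains. -/
def chU : Ch Λ → K1 Λ
  | Ch.sc _ => Ins.base (eK Λ)
  | Ch.ab _ => Ins.base (oK Λ)
  | Ch.uu _ => Ins.base ⊥
  | Ch.pp _ => Ins.new () ⊥

/-- Upper ends of the pendant chains. -/
def chV : Ch Λ → K1 Λ
  | Ch.sc _ => Ins.base ⊤
  | Ch.ab l => Ins.base (lam Λ l)
  | Ch.uu _ => Ins.base ⊤
  | Ch.pp _ => Ins.base ⊤

theorem base_lt {K : Type} [PartialOrder K] {ι : Type} {D : Ints K ι} {P : Type} [PartialOrder P]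
    {a b : K} (h : a < b) : (Ins.base a : Ins D P) < Ins.base b := by
  rw [lt_iff_le_not_ge] at h ⊢
  simpa using h

/-- The intervals in which pendant chains are inserted. -/
def D2 : Ints (K1 Λ) (Ch Λ) where
  u := chU Λ
  v := chV Λ
  lt := by
    intro j
    cases j with
    | sc i => exact base_lt (e_lt_lam ⊤)
    | ab l => exact base_lt (o_lt_lam l)
    | uu i => exact base_lt (bot_lt_o.trans (o_lt_lam ⊤))
    | pp i =>
      rw [lt_iff_le_not_ge]
      refine ⟨Ins.new_le_base.2 le_rfl, fun h => ?_⟩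
      exact not_le_of_gt (o_lt_lam ⊤) (Ins.base_le_new.1 h)

/-- The gadget. -/
abbrev Gam : Type := Ins (D2 Λ) Bool

theorem gam_sup : HasSup (Gam Λ) :=
  Ins.hasSup (Ins.hasSup (hasSup_of_lattice _) (hasSup_of_lattice _).q) (hasSup_of_lattice _).q

theorem gam_inf : HasInf (Gam Λ) :=
  Ins.hasInf (Ins.hasInf (hasInf_of_lattice _) (hasInf_of_lattice _).q) (hasInf_of_lattice _).q

theorem gam_ne : (⊥ : Gam Λ) ≠ ⊤ := by
  intro h
  have h1 : (⊤ : Gam Λ) ≤ ⊥ := h.ge
  rw [Ins.top_eq, Ins.bot_eq, Ins.base_le_base, Ins.top_eq, Ins.bot_eq, Ins.base_le_base] at h1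
  exact not_le_of_gt (bot_lt_o.trans (o_lt_lam ⊤)) h1

variable {Λ}

/-- A lattice with the gadget as a horizontal summand is nice. -/
theorem nice_of_sub {L : Type} [Lattice L] [BoundedOrder L] (S : Sub (Gam Λ) L ⊤) :
    Nice Λ L := by
  have htop : S.ι (Ins.base (Ins.base ⊤)) = ⊤ := S.top
  have hbot : S.ι (Ins.base (Ins.base ⊥)) = ⊥ := S.bot
  have bb : ∀ a b : K0 Λ, S.ι (Ins.base (Ins.base a)) ≤ S.ι (Ins.base (Ins.base b)) ↔ a ≤ b := by
    intro a b
    rw [S.le_iff, Ins.base_le_base, Ins.base_le_base]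
  have he1 : (Ins.base (Ins.base (eK Λ)) : Gam Λ) ≠ ⊥ := by
    intro h
    have h1 := h.le
    rw [Ins.bot_eq, Ins.base_le_base, Ins.bot_eq, Ins.base_le_base] at h1
    exact not_le_of_gt (bot_lt_o.trans o_lt_e) h1
  have he2 : (Ins.base (Ins.base (eK Λ)) : Gam Λ) ≠ ⊤ := by
    intro h
    have h1 := h.ge
    rw [Ins.top_eq, Ins.base_le_base, Ins.top_eq, Ins.base_le_base] at h1
    exact not_le_of_gt (e_lt_lam ⊤) h1
  have hs1 : (Ins.base (Ins.new () ⊥) : Gam Λ) ≠ ⊥ := by
    intro h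
    rw [Ins.bot_eq, Ins.bot_eq] at h
    cases h
  have hs2 : (Ins.base (Ins.new () ⊥) : Gam Λ) ≠ ⊤ := by
    intro h
    rw [Ins.top_eq, Ins.top_eq] at h
    cases h
  have hx : ∀ z, S.ι (Ins.base (Ins.base (lam Λ ⊥))) ≤ z →
      ∃ l, S.ι (Ins.base (Ins.base (lam Λ l))) = z := by
    intro z hz
    obtain ⟨g, rfl⟩ := S.cl _ he1 he2 z le_top (Or.inr (((bb _ _).2 (e_lt_lam ⊥).le).trans hz))
    rw [S.le_iff] at hz
    cases g with
    | base k =>
      rw [Ins.base_le_base] at hz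
      cases k with
      | base k =>
        rw [Ins.base_le_base] at hz
        obtain ⟨l, rfl⟩ := exists_lam hz
        exact ⟨l, rfl⟩
      | new j y => exact absurd (Ins.base_le_new.1 hz) (not_le_of_gt (o_lt_lam ⊥))
    | new j y =>
      exfalso
      rw [Ins.base_le_new] at hz
      cases j with
      | sc i => exact not_le_of_gt (e_lt_lam ⊥) (Ins.base_le_base.1 hz)
      | ab l => exact not_le_of_gt (o_lt_lam ⊥) (Ins.base_le_base.1 hz)
      | uu i => exact not_le_of_gt (bot_lt_o.trans (o_lt_lam ⊥)) (Ins.base_le_base.1 hz)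
      | pp i => exact not_le_of_gt (o_lt_lam ⊥) (Ins.base_le_new.1 hz)
  refine ⟨{
    o := S.ι (Ins.base (Ins.base (oK Λ)))
    e := S.ι (Ins.base (Ins.base (eK Λ)))
    x := S.ι (Ins.base (Ins.base (lam Λ ⊥)))
    s' := S.ι (Ins.base (Ins.new () ⊥))
    x' := S.ι (Ins.base (Ins.new () ⊤))
    s := fun i => S.ι (Ins.new (Ch.sc i) false)
    c := fun i => S.ι (Ins.new (Ch.sc i) true)
    nomod := ?_
    o_ne := ?_
    o_le := fun i => ((bb _ _).2 o_lt_e.le).trans (u_le_chain S (Ch.sc i) false)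
    s_lt := fun i => chain_lt S _
    c_ne := fun i => ?_
    above := fun i w h => ?_
    below := fun i w h => chain_below S _ w h
    e_eq := ?_
    e_le := (bb _ _).2 (e_lt_lam ⊥).le
    nomod_up := fun z w hz he hw hm => ?_
    top_emb := ⟨fun l => S.ι (Ins.base (Ins.base (lam Λ l))), fun a b => ?_, fun k => ?_⟩
    o_lt := ?_
    part := fun w => ?_
    nomod' := ?_
    s'_le := ?_
    bot_emb := ⟨fun l => S.ι (Ins.base (Ins.new () l)), fun a b => ?_, fun k => ?_⟩ }⟩
  · have := noMod_of_chains S (j := Ch.uu 0) (j' := Ch.uu 1) (by intro h; cases h) rfl rfl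
    change NoMod (S.ι (Ins.base (Ins.base ⊥))) (S.ι (Ins.base (Ins.base ⊤))) at this
    rwa [hbot, htop] at this
  · rw [← hbot, Ne, S.inj]
    intro h
    have h1 := h.le
    rw [Ins.base_le_base, Ins.base_le_base] at h1
    exact not_le_of_gt bot_lt_o h1
  · exact fun h => new_ne_top _ _ (S.inj.1 (h.trans S.top.symm))
  · rcases chain_le S h with ⟨b, -, rfl⟩ | h'
    · cases b
      · exact Or.inl rfl
      · exact Or.inr (Or.inl rfl)
    · refine Or.inr (Or.inr ?_)
      rw [← top_le_iff, ← htop]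
      exact h'
  · refine le_antisymm (le_inf (u_le_chain S (Ch.sc 0) true) (u_le_chain S (Ch.sc 1) true)) ?_
    rcases le_chain S (inf_le_left : S.ι (Ins.new (Ch.sc 0) true) ⊓
      S.ι (Ins.new (Ch.sc 1) true) ≤ _) with ⟨b, -, hb⟩ | h
    · rcases le_chain S (inf_le_right : S.ι (Ins.new (Ch.sc 0) true) ⊓
        S.ι (Ins.new (Ch.sc 1) true) ≤ _) with ⟨b', -, hb'⟩ | h
      · rw [hb, S.inj] at hb'
        cases hb'
      · exact h
    · exact h
  · obtain ⟨l, rfl⟩ := hx z hz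
    rcases chain_mod S (Ch.ab l) hm bot_le le_rfl with ⟨c, rfl⟩ | h | h
    · rw [S.le_iff, Ins.base_le_new] at he
      exact absurd (Ins.base_le_base.1 he) (not_le_of_gt o_lt_e)
    · exact le_antisymm hw h
    · exact absurd ((bb _ _).1 (he.trans h)) (not_le_of_gt o_lt_e)
  · rw [bb, lam_le]
  · constructor
    · rintro ⟨l, rfl⟩
      exact (bb _ _).2 (lam_le.2 bot_le)
    · exact hx k
  · rw [S.lt_iff]
    apply base_lt
    rw [lt_iff_le_not_ge]
    refine ⟨Ins.base_le_new.2 le_rfl, fun h => ?_⟩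
    exact not_le_of_gt (o_lt_lam ⊤) (Ins.new_le_base.1 h)
  · by_cases hw : w ⊓ S.ι (Ins.base (Ins.new () ⊥)) = ⊥
    · exact Or.inr hw
    left
    obtain ⟨g, hg⟩ := S.cl _ hs1 hs2 _ le_top
      (Or.inl (inf_le_right : w ⊓ S.ι (Ins.base (Ins.new () ⊥)) ≤ _))
    refine le_trans ?_ (inf_le_left : w ⊓ S.ι (Ins.base (Ins.new () ⊥)) ≤ _)
    have hle : S.ι g ≤ S.ι (Ins.base (Ins.new () ⊥)) := by
      rw [hg]
      exact inf_le_right
    rw [← hg] at hw ⊢
    rw [S.le_iff] at hle ⊢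
    cases g with
    | base k =>
      rw [Ins.base_le_base]
      cases k with
      | base k =>
        rcases o_le_or k with h | rfl
        · exact Ins.base_le_base.2 h
        · exact absurd hbot hw
      | new j y => exact Ins.base_le_new.2 le_rfl
    | new j y =>
      exfalso
      rw [Ins.new_le_base] at hle
      cases j with
      | sc i => exact not_le_of_gt (o_lt_lam ⊤) (Ins.base_le_new.1 hle)
      | ab l => exact not_le_of_gt (o_lt_lam l) (Ins.base_le_new.1 hle)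
      | uu i => exact not_le_of_gt (o_lt_lam ⊤) (Ins.base_le_new.1 hle)
      | pp i => exact not_le_of_gt (o_lt_lam ⊤) (Ins.base_le_new.1 hle)
  · have := noMod_of_chains S (j := Ch.pp 0) (j' := Ch.pp 1) (by intro h; cases h) rfl rfl
    change NoMod (S.ι (Ins.base (Ins.new () ⊥))) (S.ι (Ins.base (Ins.base ⊤))) at this
    rwa [htop] at this
  · rw [S.le_iff, Ins.base_le_base, Ins.new_le_new_same]
    exact bot_le
  · rw [S.le_iff, Ins.base_le_base, Ins.new_le_new_same]
  · constructor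
    · rintro ⟨l, rfl⟩
      constructor
      · rw [S.le_iff, Ins.base_le_base, Ins.new_le_new_same]
        exact bot_le
      · rw [S.le_iff, Ins.base_le_base, Ins.new_le_new_same]
        exact le_top
    · rintro ⟨h1, h2⟩
      obtain ⟨g, rfl⟩ := S.cl _ hs1 hs2 k le_top (Or.inr h1)
      rw [S.le_iff] at h1 h2
      cases g with
      | base k =>
        rw [Ins.base_le_base] at h1 h2
        cases k with
        | base k =>
          exact absurd ((Ins.new_le_base.1 h1).trans (Ins.base_le_new.1 h2))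
            (not_le_of_gt (o_lt_lam ⊤))
        | new j y => exact ⟨y, rfl⟩
      | new j y =>
        exfalso
        rw [Ins.new_le_base] at h2
        cases j with
        | sc i => exact not_le_of_gt (o_lt_lam ⊤) (Ins.base_le_new.1 h2)
        | ab l => exact not_le_of_gt (o_lt_lam l) (Ins.base_le_new.1 h2)
        | uu i => exact not_le_of_gt (o_lt_lam ⊤) (Ins.base_le_new.1 h2)
        | pp i => exact not_le_of_gt (o_lt_lam ⊤) (Ins.base_le_new.1 h2)

variable (Λ)

/-- The intervals `[⊥, z I]`. -/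
def D3 : Ints (WithBot (Finset (Fin 4))) (Finset (Fin 4)) where
  u := fun _ => ⊥
  v := fun I => (I : WithBot (Finset (Fin 4)))
  lt := fun I => WithBot.bot_lt_coe I

/-- The Boolean lattice with a new bottom and a gadget below each element. -/
abbrev AA : Type := Ins D3 (Pr (Gam Λ))

theorem aa_sup : HasSup (AA Λ) := Ins.hasSup (hasSup_of_lattice _) (qsup_pr (gam_sup Λ))

theorem aa_inf : HasInf (AA Λ) := Ins.hasInf (hasInf_of_lattice _) (qinf_pr (gam_inf Λ))

theorem aa_lt : (⊥ : AA Λ) < ⊤ :=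
  base_lt (WithBot.bot_lt_coe (Finset.univ : Finset (Fin 4)))

variable {Λ}

theorem good_half {L : Type} [Lattice L] [BoundedOrder L] (T : Sub (AA Λ) L ⊤) :
    Nice Λ L ∧ Conf Λ L := by
  have hS : ∀ I : Finset (Fin 4),
      Sub (Gam Λ) L (T.ι (Ins.base (I : WithBot (Finset (Fin 4))))) := fun I =>
    (blockSub D3 (Gam Λ) (gam_ne Λ) I rfl).comp T
  have htop : T.ι (Ins.base ((Finset.univ : Finset (Fin 4)) : WithBot (Finset (Fin 4)))) = ⊤ :=
    T.top
  have hmono : Monotone fun I : Finset (Fin 4) =>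
      T.ι (Ins.base (I : WithBot (Finset (Fin 4)))) := by
    intro I J h
    exact (T.le_iff _ _).2 (Ins.base_le_base.2 (WithBot.coe_le_coe.2 h))
  have hne : ∀ I : Finset (Fin 4), I.card ≤ 3 →
      (Ins.base (I : WithBot (Finset (Fin 4))) : AA Λ) ≠ ⊤ := by
    intro I hI h
    have h1 := Ins.base_le_base.1 h.ge
    have h2 : (Finset.univ : Finset (Fin 4)) ≤ I := WithBot.coe_le_coe.1 h1
    have h3 := Finset.card_le_card h2
    rw [Finset.card_univ, Fintype.card_fin] at h3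
    omega
  refine ⟨nice_of_sub (htop ▸ hS Finset.univ), _, hmono, ?_, htop, fun I hI => ⟨?_, ?_⟩⟩
  · intro I hI
    refine le_antisymm ?_ (Finset.sup_le fun i hi => hmono (Finset.singleton_subset_iff.2 hi))
    obtain ⟨i, hi⟩ := hI
    have hb : (Ins.base (({i} : Finset (Fin 4)) : WithBot (Finset (Fin 4))) : AA Λ) ≠ ⊥ := by
      intro h
      exact not_le_of_gt (WithBot.bot_lt_coe _) (Ins.base_le_base.1 h.le)
    have hall : ∀ k ∈ I, T.ι (Ins.base (({k} : Finset (Fin 4)) : WithBot (Finset (Fin 4)))) ≤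
        I.sup fun k => T.ι (Ins.base (({k} : Finset (Fin 4)) : WithBot (Finset (Fin 4)))) :=
      fun k hk => Finset.le_sup
        (f := fun k => T.ι (Ins.base (({k} : Finset (Fin 4)) : WithBot (Finset (Fin 4))))) hk
    obtain ⟨g, hg⟩ := T.cl _ hb (hne {i} (by simp)) _ le_top (Or.inr (hall i hi))
    rw [← hg] at hall ⊢
    rw [T.le_iff, Ins.base_le]
    have hall' : ∀ k ∈ I, (({k} : Finset (Fin 4)) : WithBot (Finset (Fin 4))) ≤ g.lo :=
      fun k hk => Ins.base_le.1 ((T.le_iff _ _).1 (hall k hk))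
    generalize g.lo = m at hall'
    induction m using WithBot.recBotCoe with
    | bot => exact absurd (hall' i hi) (not_le_of_gt (WithBot.bot_lt_coe _))
    | coe m =>
      refine WithBot.coe_le_coe.2 fun k hk => ?_
      exact Finset.singleton_subset_iff.1 (WithBot.coe_le_coe.1 (hall' k hk))
  · exact fun h => hne I hI (T.inj.1 (h.trans T.top.symm))
  · exact nice_of_sub (hS I).toIic

variable (Λ)

/-- The whole of `AA`. -/
def D4 : Ints (AA Λ) Unit where
  u := fun _ => ⊥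
  v := fun _ => ⊤
  lt := fun _ => aa_lt Λ

/-- The horizontal sum of `AA` and its dual. -/
abbrev LL : Type := Ins (D4 Λ) (Pr (AA Λ)ᵒᵈ)

theorem finite_withBot {X : Type} [Finite X] : Finite (WithBot X) :=
  Finite.of_equiv _ (Equiv.optionEquivSumPUnit.{0} X).symm

theorem ll_finite [Finite Λ] : Finite (LL Λ) := by
  have h0 : Finite (WithBot Λ) := finite_withBot
  have h0' : Finite (WithBot (WithBot Λ)) := finite_withBot
  have h0'' : Finite (K0 Λ) := finite_withBot
  have h4 : Finite (WithBot (Finset (Fin 4))) := finite_withBot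
  have h1 : Finite (K1 Λ) := inferInstance
  have h2 : Finite (Gam Λ) := inferInstance
  have h3 : Finite (AA Λ) := inferInstance
  infer_instance

theorem ll_sup : HasSup (LL Λ) := Ins.hasSup (aa_sup Λ) (qsup_pr (aa_inf Λ).dual)

theorem ll_inf : HasInf (LL Λ) := Ins.hasInf (aa_inf Λ) (qinf_pr (aa_sup Λ).dual)

end gadget

/-- For every finite lattice `Λ` there is a finite bounded lattice which is good for `Λ`. -/
theorem exists_good (Λ : Type) [Lattice Λ] [Finite Λ] [Nonempty Λ] :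
    ∃ (L : Type) (_ : Lattice L) (_ : BoundedOrder L) (_ : Finite L), P183A.Good Λ L := by
  let _ : Fintype Λ := Fintype.ofFinite Λ
  let _ : BoundedOrder Λ := Fintype.toBoundedOrder Λ
  let _ : Lattice (LL Λ) := toLattice (LL Λ) (ll_sup Λ) (ll_inf Λ)
  have h1 := good_half (Λ := Λ) (L := LL Λ) (baseSub (D4 Λ) _ (fun _ => rfl) (fun _ => rfl))
  have h2 := good_half (Λ := Λ) (L := (LL Λ)ᵒᵈ)
    (blockSub (D4 Λ) (AA Λ)ᵒᵈ (aa_lt Λ).ne' () rfl).dual
  exact ⟨LL Λ, inferInstance, inferInstance, ll_finite Λ, h1.1, h2.1, h1.2, h2.2⟩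

end Vale.Agent.P183B
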